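import Mathlib

/-!
# P042, window y ~ P^2 (H2), leaf (T3)(D): the pathwise half of the cube lemma

For an `n`-linear form on `Fin N` with no diagonal (coefficients `c F`, `F` a set of `n` indices)
whose values on the complex unit ball of `l^2` are at most `J`, every mixed coefficient in two real
directions is at most `J * 2 ^ n` times the product of the norms of the two directions.  The proof
extracts the mixed coefficient by averaging over the roots of unity of order `n + 1`.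
-/

set_option autoImplicit false

namespace Vale.Agent.P042.H201

open Finset

variable {N : ℕ}

/-- Orthogonality of the roots of unity of order `n + 1`. -/
lemma root_orth {n : ℕ} {z : ℂ} (hz : IsPrimitiveRoot z (n + 1)) {l m : ℕ} (hl : l ≤ n)
    (hm : m ≤ n) :
    ∑ k ∈ range (n + 1), (z ^ k) ^ (n + 1 - m + l) = if l = m then ((n : ℂ) + 1) else 0 := by
  have hcomm : ∀ k, (z ^ k) ^ (n + 1 - m + l) = (z ^ (n + 1 - m + l)) ^ k := by
    intro k
    rw [← pow_mul, ← pow_mul, Nat.mul_comm]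
  simp only [hcomm]
  split_ifs with h
  · subst h
    have h1 : n + 1 - l + l = n + 1 := by omega
    rw [h1, hz.pow_eq_one]
    simp
  · have hne : z ^ (n + 1 - m + l) ≠ 1 := by
      intro h1
      have h2 := (hz.pow_eq_one_iff_dvd _).1 h1
      obtain ⟨q, hq⟩ := h2
      have h3 : 0 < n + 1 - m + l := by omega
      have h4 : n + 1 - m + l < 2 * (n + 1) := by omega
      have hq1 : q = 1 := by
        have hq0 : q ≠ 0 := by
          rintro rfl
          simp at hq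
          omega
        have hq2 : q < 2 := by
          by_contra hcon
          have : 2 ≤ q := by omega
          have h5 : (n + 1) * 2 ≤ (n + 1) * q := Nat.mul_le_mul_left _ this
          omega
        omega
      subst hq1
      apply h
      omega
    rw [geom_sum_eq hne]
    rw [← pow_mul, Nat.mul_comm, pow_mul, hz.pow_eq_one, one_pow, sub_self, zero_div]

/-- A form homogeneous of degree `n` that is at most `J` on the unit ball is at most `J * r ^ n`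
on the ball of radius `r`. -/
lemma form_le (c : Finset (Fin N) → ℝ) (n : ℕ) (hc : ∀ F, F.card ≠ n → c F = 0) (J : ℝ)
    (hJ : ∀ y : Fin N → ℂ, ∑ i, ‖y i‖ ^ 2 ≤ 1 → ‖∑ F, (c F : ℂ) * ∏ i ∈ F, y i‖ ≤ J)
    (r : ℝ) (hr : 0 < r) (y : Fin N → ℂ) (hy : ∑ i, ‖y i‖ ^ 2 ≤ r ^ 2) :
    ‖∑ F, (c F : ℂ) * ∏ i ∈ F, y i‖ ≤ J * r ^ n := by
  have hrC : (r : ℂ) ≠ 0 := by exact_mod_cast hr.ne'
  have h1 : ∑ i, ‖y i / (r : ℂ)‖ ^ 2 ≤ 1 := by
    have : ∀ i, ‖y i / (r : ℂ)‖ ^ 2 = ‖y i‖ ^ 2 / r ^ 2 := by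
      intro i
      rw [norm_div, Complex.norm_real, Real.norm_of_nonneg hr.le, div_pow]
    simp only [this]
    rw [← Finset.sum_div, div_le_one (by positivity)]
    exact hy
  have h2 := hJ _ h1
  have h3 : ∑ F, (c F : ℂ) * ∏ i ∈ F, y i
      = (r : ℂ) ^ n * ∑ F, (c F : ℂ) * ∏ i ∈ F, (y i / (r : ℂ)) := by
    rw [Finset.mul_sum]
    refine Finset.sum_congr rfl fun F _ => ?_
    by_cases hF : F.card = n
    · rw [Finset.prod_div_distrib, Finset.prod_const, hF]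
      field_simp
    · rw [hc F hF]
      simp
  rw [h3, norm_mul, norm_pow, Complex.norm_real, Real.norm_of_nonneg hr.le, mul_comm]
  exact mul_le_mul_of_nonneg_right h2 (by positivity)

/-- Extraction of the coefficient of `z ^ m` by averaging over roots of unity. -/
lemma extract (c : Finset (Fin N) → ℝ) (n : ℕ) (hc : ∀ F, F.card ≠ n → c F = 0)
    {z : ℂ} (hz : IsPrimitiveRoot z (n + 1)) (x y : Fin N → ℂ) (m : ℕ) (hm : m ≤ n) :
    ∑ k ∈ range (n + 1), (z ^ k) ^ (n + 1 - m) *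
        ∑ F, (c F : ℂ) * ∏ i ∈ F, (z ^ k * x i + y i)
      = ((n : ℂ) + 1) * ∑ F, (c F : ℂ) * ∑ G ∈ F.powersetCard m,
          (∏ i ∈ G, x i) * ∏ i ∈ F \ G, y i := by
  have h1 : ∀ k, (z ^ k) ^ (n + 1 - m) * ∑ F, (c F : ℂ) * ∏ i ∈ F, (z ^ k * x i + y i)
      = ∑ F, ∑ G ∈ F.powerset, (c F : ℂ) * (((z ^ k) ^ (n + 1 - m + G.card)) *
          ((∏ i ∈ G, x i) * ∏ i ∈ F \ G, y i)) := by
    intro k
    rw [Finset.mul_sum]
    refine Finset.sum_congr rfl fun F _ => ?_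
    rw [Finset.prod_add, Finset.mul_sum, Finset.mul_sum]
    refine Finset.sum_congr rfl fun G _ => ?_
    rw [Finset.prod_mul_distrib, Finset.prod_const, pow_add]
    ring
  simp only [h1]
  rw [Finset.sum_comm, Finset.mul_sum]
  refine Finset.sum_congr rfl fun F _ => ?_
  by_cases hF : F.card = n
  · rw [Finset.sum_comm]
    have h2 : ∀ G ∈ F.powerset, ∑ k ∈ range (n + 1), (c F : ℂ) *
        (((z ^ k) ^ (n + 1 - m + G.card)) * ((∏ i ∈ G, x i) * ∏ i ∈ F \ G, y i))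
        = if G.card = m then ((n : ℂ) + 1) * ((c F : ℂ) *
            ((∏ i ∈ G, x i) * ∏ i ∈ F \ G, y i)) else 0 := by
      intro G hG
      rw [← Finset.mul_sum, ← Finset.sum_mul]
      have hG' : G.card ≤ n := by
        rw [← hF]
        exact Finset.card_le_card (Finset.mem_powerset.1 hG)
      rw [root_orth hz hG' hm]
      split_ifs
      · ring
      · ring
    rw [Finset.sum_congr rfl h2, ← Finset.sum_filter, Finset.mul_sum, Finset.mul_sum]
    refine Finset.sum_congr ?_ fun G _ => rfl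
    ext G
    simp [Finset.mem_powersetCard, Finset.mem_powerset]
  · rw [hc F hF]
    simp

/-- The bound with strictly positive majorants of the two norms. -/
lemma pathwise_pos (c : Finset (Fin N) → ℝ) (n : ℕ) (hc : ∀ F, F.card ≠ n → c F = 0) (J : ℝ)
    (hJ : ∀ y : Fin N → ℂ, ∑ i, ‖y i‖ ^ 2 ≤ 1 → ‖∑ F, (c F : ℂ) * ∏ i ∈ F, y i‖ ≤ J)
    (h ξ : Fin N → ℝ) (m : ℕ) (hm : m ≤ n) (a b : ℝ) (ha : 0 < a) (hb : 0 < b)
    (hξa : ∑ i, ξ i ^ 2 ≤ a ^ 2) (hhb : ∑ i, h i ^ 2 ≤ b ^ 2) :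
    |∑ F, c F * ∑ G ∈ F.powersetCard m, (∏ i ∈ G, ξ i) * ∏ i ∈ F \ G, h i|
      ≤ J * 2 ^ n * a ^ m * b ^ (n - m) := by
  have hz : IsPrimitiveRoot (Complex.exp (2 * Real.pi * Complex.I / ((n + 1 : ℕ) : ℂ))) (n + 1) :=
    Complex.isPrimitiveRoot_exp (n + 1) (Nat.succ_ne_zero n)
  set z : ℂ := Complex.exp (2 * Real.pi * Complex.I / ((n + 1 : ℕ) : ℂ)) with hzdef
  have hzn : ‖z‖ = 1 := hz.norm'_eq_one (Nat.succ_ne_zero n)
  have haC : (a : ℂ) ≠ 0 := by exact_mod_cast ha.ne'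
  have hbC : (b : ℂ) ≠ 0 := by exact_mod_cast hb.ne'
  set x : Fin N → ℂ := fun i => (ξ i : ℂ) / (a : ℂ) with hx
  set y : Fin N → ℂ := fun i => (h i : ℂ) / (b : ℂ) with hy
  have hx1 : ∑ i, ‖x i‖ ^ 2 ≤ 1 := by
    have : ∀ i, ‖x i‖ ^ 2 = ξ i ^ 2 / a ^ 2 := by
      intro i
      rw [hx]
      simp only [norm_div, Complex.norm_real, Real.norm_of_nonneg ha.le, div_pow]
      rw [Real.norm_eq_abs, sq_abs]
    simp only [this]
    rw [← Finset.sum_div, div_le_one (by positivity)]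
    exact hξa
  have hy1 : ∑ i, ‖y i‖ ^ 2 ≤ 1 := by
    have : ∀ i, ‖y i‖ ^ 2 = h i ^ 2 / b ^ 2 := by
      intro i
      rw [hy]
      simp only [norm_div, Complex.norm_real, Real.norm_of_nonneg hb.le, div_pow]
      rw [Real.norm_eq_abs, sq_abs]
    simp only [this]
    rw [← Finset.sum_div, div_le_one (by positivity)]
    exact hhb
  -- each value of the polynomial on the circle is at most `J * 2 ^ n`
  have hval : ∀ k : ℕ, ‖∑ F, (c F : ℂ) * ∏ i ∈ F, (z ^ k * x i + y i)‖ ≤ J * 2 ^ n := by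
    intro k
    refine form_le c n hc J hJ 2 two_pos _ ?_
    have hk : ‖z ^ k‖ = 1 := by rw [norm_pow, hzn, one_pow]
    have : ∀ i, ‖z ^ k * x i + y i‖ ^ 2 ≤ 2 * ‖x i‖ ^ 2 + 2 * ‖y i‖ ^ 2 := by
      intro i
      have h1 : ‖z ^ k * x i + y i‖ ≤ ‖x i‖ + ‖y i‖ := by
        refine (norm_add_le _ _).trans ?_
        rw [norm_mul, hk, one_mul]
      have h2 : ‖z ^ k * x i + y i‖ ^ 2 ≤ (‖x i‖ + ‖y i‖) ^ 2 :=
        pow_le_pow_left₀ (norm_nonneg _) h1 2
      nlinarith [sq_nonneg (‖x i‖ - ‖y i‖)]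
    calc ∑ i, ‖z ^ k * x i + y i‖ ^ 2 ≤ ∑ i, (2 * ‖x i‖ ^ 2 + 2 * ‖y i‖ ^ 2) :=
          Finset.sum_le_sum fun i _ => this i
      _ = 2 * ∑ i, ‖x i‖ ^ 2 + 2 * ∑ i, ‖y i‖ ^ 2 := by
          rw [Finset.sum_add_distrib, Finset.mul_sum, Finset.mul_sum]
      _ ≤ 2 ^ 2 := by linarith
  have hext := extract c n hc hz x y m hm
  -- the normalised mixed coefficient
  set T : ℂ := ∑ F, (c F : ℂ) * ∑ G ∈ F.powersetCard m, (∏ i ∈ G, x i) * ∏ i ∈ F \ G, y i
    with hT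
  have hTn : ‖T‖ ≤ J * 2 ^ n := by
    have h1 : ‖((n : ℂ) + 1) * T‖ ≤ ((n : ℝ) + 1) * (J * 2 ^ n) := by
      rw [← hext]
      refine (norm_sum_le _ _).trans ?_
      calc ∑ k ∈ range (n + 1), ‖(z ^ k) ^ (n + 1 - m) *
              ∑ F, (c F : ℂ) * ∏ i ∈ F, (z ^ k * x i + y i)‖
          ≤ ∑ k ∈ range (n + 1), J * 2 ^ n := by
            refine Finset.sum_le_sum fun k _ => ?_
            rw [norm_mul, norm_pow, norm_pow, hzn, one_pow, one_pow, one_mul]
            exact hval k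
        _ = ((n : ℝ) + 1) * (J * 2 ^ n) := by
            rw [Finset.sum_const, Finset.card_range, nsmul_eq_mul]
            push_cast
            ring
    have h2 : ‖((n : ℂ) + 1) * T‖ = ((n : ℝ) + 1) * ‖T‖ := by
      rw [norm_mul]
      congr 1
      have : ((n : ℂ) + 1) = (((n : ℝ) + 1 : ℝ) : ℂ) := by push_cast; ring
      rw [this, Complex.norm_real, Real.norm_of_nonneg (by positivity)]
    rw [h2] at h1
    exact le_of_mul_le_mul_left h1 (by positivity)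
  -- undo the normalisation
  have hback : ((∑ F, c F * ∑ G ∈ F.powersetCard m, (∏ i ∈ G, ξ i) * ∏ i ∈ F \ G, h i : ℝ) : ℂ)
      = (a : ℂ) ^ m * (b : ℂ) ^ (n - m) * T := by
    rw [hT, Finset.mul_sum]
    push_cast
    refine Finset.sum_congr rfl fun F _ => ?_
    by_cases hF : F.card = n
    · have h1 : ∀ G ∈ F.powersetCard m, (∏ i ∈ G, (ξ i : ℂ)) * ∏ i ∈ F \ G, (h i : ℂ)
          = (a : ℂ) ^ m * (b : ℂ) ^ (n - m) * ((∏ i ∈ G, x i) * ∏ i ∈ F \ G, y i) := by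
        intro G hG
        obtain ⟨hGF, hGm⟩ := Finset.mem_powersetCard.1 hG
        have hcard : (F \ G).card = n - m := by
          rw [Finset.card_sdiff_of_subset hGF, hF, hGm]
        rw [hx, hy]
        simp only [Finset.prod_div_distrib, Finset.prod_const, hGm, hcard]
        field_simp
      rw [Finset.sum_congr rfl h1, ← Finset.mul_sum]
      ring
    · rw [hc F hF]
      simp
  have hfin : |∑ F, c F * ∑ G ∈ F.powersetCard m, (∏ i ∈ G, ξ i) * ∏ i ∈ F \ G, h i|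
      = a ^ m * b ^ (n - m) * ‖T‖ := by
    rw [← Real.norm_eq_abs, ← Complex.norm_real, hback, norm_mul, norm_mul, norm_pow, norm_pow,
      Complex.norm_real, Complex.norm_real, Real.norm_of_nonneg ha.le, Real.norm_of_nonneg hb.le]
  rw [hfin]
  calc a ^ m * b ^ (n - m) * ‖T‖ ≤ a ^ m * b ^ (n - m) * (J * 2 ^ n) :=
        mul_le_mul_of_nonneg_left hTn (by positivity)
    _ = J * 2 ^ n * a ^ m * b ^ (n - m) := by ring

/-- **(T3)(D)**: the pathwise half of the cube lemma. -/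
theorem pathwise (c : Finset (Fin N) → ℝ) (n : ℕ) (hc : ∀ F, F.card ≠ n → c F = 0) (J : ℝ)
    (hJ : ∀ y : Fin N → ℂ, ∑ i, ‖y i‖ ^ 2 ≤ 1 → ‖∑ F, (c F : ℂ) * ∏ i ∈ F, y i‖ ≤ J)
    (h ξ : Fin N → ℝ) (m : ℕ) (hm : m ≤ n) :
    |∑ F, c F * ∑ G ∈ F.powersetCard m, (∏ i ∈ G, ξ i) * ∏ i ∈ F \ G, h i|
      ≤ J * 2 ^ n * (Real.sqrt (∑ i, ξ i ^ 2)) ^ m * (Real.sqrt (∑ i, h i ^ 2)) ^ (n - m) := by
  set A := Real.sqrt (∑ i, ξ i ^ 2) with hA
  set B := Real.sqrt (∑ i, h i ^ 2) with hB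
  have hA0 : 0 ≤ A := Real.sqrt_nonneg _
  have hB0 : 0 ≤ B := Real.sqrt_nonneg _
  have hA2 : ∑ i, ξ i ^ 2 = A ^ 2 := by
    rw [hA, Real.sq_sqrt (Finset.sum_nonneg fun i _ => sq_nonneg _)]
  have hB2 : ∑ i, h i ^ 2 = B ^ 2 := by
    rw [hB, Real.sq_sqrt (Finset.sum_nonneg fun i _ => sq_nonneg _)]
  have hkey : ∀ δ : ℝ, 0 < δ →
      |∑ F, c F * ∑ G ∈ F.powersetCard m, (∏ i ∈ G, ξ i) * ∏ i ∈ F \ G, h i|
        ≤ J * 2 ^ n * (A + δ) ^ m * (B + δ) ^ (n - m) := by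
    intro δ hδ
    refine pathwise_pos c n hc J hJ h ξ m hm (A + δ) (B + δ) (by linarith) (by linarith) ?_ ?_
    · rw [hA2]
      exact pow_le_pow_left₀ hA0 (by linarith) 2
    · rw [hB2]
      exact pow_le_pow_left₀ hB0 (by linarith) 2
  have hcont : Filter.Tendsto (fun δ : ℝ => J * 2 ^ n * (A + δ) ^ m * (B + δ) ^ (n - m))
      (nhdsWithin 0 (Set.Ioi 0)) (nhds (J * 2 ^ n * (A + 0) ^ m * (B + 0) ^ (n - m))) := by
    refine Filter.Tendsto.mono_left ?_ nhdsWithin_le_nhds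
    exact Continuous.tendsto (by fun_prop) 0
  have hlim := ge_of_tendsto hcont
    (Filter.eventually_of_mem self_mem_nhdsWithin fun δ hδ => hkey δ hδ)
  simpa using hlim

end Vale.Agent.P042.H201
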